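import Vale.Agent.P334.Cost

namespace Vale.Agent.Results.P334.GreedyClasses

open Vale.Agent.P334 Finset

/-- k-median with distances d j i at least 0 (no triangle inequality is used). T is any feasible
solution of k-median (so cost d T can be OPT_k), S t is the set of the greedy run after t steps. -/
theorem result : ∀ (J F : Type) [Fintype J] [Fintype F] [Nonempty F] [DecidableEq F]
    (d : J → F → ℝ), (∀ j i, 0 ≤ d j i) →
    (∀ S0 : Finset F, ∃ S : ℕ → Finset F, S 0 = S0 ∧ IsGreedy d S) ∧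
    ∀ S : ℕ → Finset F, IsGreedy d S → ∀ k : ℕ, 1 ≤ k → ∀ T : Finset F, T.Nonempty → T.card ≤ k →
      (∀ t, (S t).card ≤ (S 0).card + t) ∧
      ((S 0).Nonempty → ∀ t,
        cost d (S t) ≤ cost d T + (1 - 1 / (k : ℝ)) ^ t * (cost d (S 0) - cost d T)) ∧
      ((S 0).Nonempty → (S 0).card ≤ k → ∀ b c : ℝ, ((S 0).card : ℝ) ≤ b * k → 1 ≤ c →
        cost d (S 0) ≤ c * cost d T →
        cost d (S (k - (S 0).card)) ≤ (1 + (c - 1) / Real.exp (1 - b)) * cost d T ∧
        (c < 1 + Real.exp (1 - b) → 1 + (c - 1) / Real.exp (1 - b) < 2)) ∧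
      (S 0 = ∅ → ∀ D : ℝ, ∑ j, top d j ≤ D * cost d T →
        cost d (S k) ≤ (1 + (D - 1) / Real.exp 1) * cost d T) ∧
      (S 0 = ∅ → ∀ a D : ℝ, 0 < a → (∀ j i, a ≤ d j i ∧ d j i ≤ D * a) →
        cost d (S k) ≤ (1 + (D - 1) / Real.exp 1) * cost d T) := by
  intro J F _ _ _ _ d hd
  refine ⟨exists_greedy d, fun S hS k hk T hT0 hT => ?_⟩
  have hcT : 0 ≤ cost d T := by
    unfold cost
    refine Finset.sum_nonneg fun j _ => ?_
    rw [dif_pos hT0]
    exact Finset.le_inf' _ _ fun i _ => hd j i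
  refine ⟨card_greedy hS, fun h0 t => start hS hk hT0 hT h0 t, ?_, ?_, ?_⟩
  · intro h0 h1 b c hb hc hc0
    refine ⟨start_frac hS hk hT0 hT h0 hcT b c hb h1 hc hc0, fun h => ?_⟩
    have : (c - 1) / Real.exp (1 - b) < 1 := by
      rw [div_lt_one (Real.exp_pos _)]; linarith
    linarith
  · intro h0 D hD
    exact start_empty hS hk hT0 hT h0 D hD
  · intro h0 a D ha hda
    refine start_empty hS hk hT0 hT h0 D ?_
    rcases isEmpty_or_nonempty J with hJ | ⟨⟨j0⟩⟩
    · simp [cost]
    · obtain ⟨i0⟩ := ‹Nonempty F›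
      have hD : 0 ≤ D := by
        have h1 := hda j0 i0
        by_contra hneg
        push Not at hneg
        have : D * a < 0 := mul_neg_of_neg_of_pos hneg ha
        linarith
      unfold cost
      rw [Finset.mul_sum]
      refine Finset.sum_le_sum fun j _ => ?_
      rw [dif_pos hT0]
      have h1 : top d j ≤ D * a := Finset.sup'_le _ _ fun i _ => (hda j i).2
      have h2 : a ≤ T.inf' hT0 (d j) := Finset.le_inf' _ _ fun i _ => (hda j i).1
      exact h1.trans (mul_le_mul_of_nonneg_left h2 hD)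

end Vale.Agent.Results.P334.GreedyClasses
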